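import Vale.Agent.P174.Indicable.Words

/-!
Definitions: exponent sums, solvable systems, walks, stages of the tower.
-/

namespace Vale.Agent.P174.Indicable

/-- Exponent sums of the unknowns: the homomorphism killing the coefficients and sending the
`i`-th unknown to the `i`-th unit vector. -/
def exps {G : Type} [Group G] {n : ℕ} :
    Monoid.Coprod G (FreeGroup (Fin n)) →* Multiplicative (Fin n → ℤ) :=
  Monoid.Coprod.lift 1
    (FreeGroup.lift fun i => Multiplicative.ofAdd (Pi.single i (1 : ℤ)))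

/-- Every nonsingular finite system over `G` is solvable over `G`. -/
def SystemsSolvable (G : Type) [Group G] : Prop :=
  ∀ (m n : ℕ) (w : Fin m → Monoid.Coprod G (FreeGroup (Fin n))),
    LinearIndependent ℚ (fun i => fun j => ((Multiplicative.toAdd (exps (w i)) j : ℤ) : ℚ)) →
    Function.Injective ((QuotientGroup.mk' (Subgroup.normalClosure (Set.range w))).comp
      Monoid.Coprod.inl : G → _)

variable {G : Type} [Group G]

/-- A walk of coefficient edges from `u` to `v` with product `g`. -/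
def IsWalk {A B V : Type} (s t : A → V) (lab : A → G) :
    List ((A ⊕ B) × Bool) → V → V → G → Prop
  | [], u, v, g => u = v ∧ g = 1
  | (Sum.inl a, true) :: L, u, v, g => s a = u ∧ ∃ g', IsWalk s t lab L (t a) v g' ∧ g = lab a * g'
  | (Sum.inl a, false) :: L, u, v, g =>
      t a = u ∧ ∃ g', IsWalk s t lab L (s a) v g' ∧ g = (lab a)⁻¹ * g'
  | (Sum.inr _, _) :: _, _, _, _ => False

lemma IsWalk.append {A B V : Type} {s t : A → V} {lab : A → G} :
    ∀ {L L' : List ((A ⊕ B) × Bool)} {u v w : V} {g g' : G},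
      IsWalk s t lab L u v g → IsWalk s t lab L' v w g' → IsWalk s t lab (L ++ L') u w (g * g')
  | [], _, _, _, _, _, _, h, h' => by
    obtain ⟨rfl, rfl⟩ := h
    simpa using h'
  | (Sum.inl a, true) :: L, _, _, _, _, _, _, h, h' => by
    obtain ⟨hs, g₀, hg, rfl⟩ := h
    exact ⟨hs, _, IsWalk.append hg h', mul_assoc _ _ _⟩
  | (Sum.inl a, false) :: L, _, _, _, _, _, _, h, h' => by
    obtain ⟨hs, g₀, hg, rfl⟩ := h
    exact ⟨hs, _, IsWalk.append hg h', mul_assoc _ _ _⟩
  | (Sum.inr _, _) :: _, _, _, _, _, _, _, h, _ => h.elim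

lemma IsWalk.reverse {A B V : Type} {s t : A → V} {lab : A → G} :
    ∀ {L : List ((A ⊕ B) × Bool)} {u v : V} {g : G},
      IsWalk s t lab L u v g → IsWalk s t lab (FreeGroup.invRev L) v u g⁻¹
  | [], _, _, _, h => by
    obtain ⟨rfl, rfl⟩ := h
    simp [FreeGroup.invRev, IsWalk]
  | (Sum.inl a, true) :: L, u, v, _, h => by
    obtain ⟨hs, g₀, hg, rfl⟩ := h
    have h1 : IsWalk s t lab [((Sum.inl a : A ⊕ B), false)] (t a) u (lab a)⁻¹ :=
      ⟨rfl, 1, ⟨hs, rfl⟩, (mul_one _).symm⟩
    simpa [FreeGroup.invRev] using IsWalk.append (IsWalk.reverse hg) h1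
  | (Sum.inl a, false) :: L, u, v, _, h => by
    obtain ⟨hs, g₀, hg, rfl⟩ := h
    have h1 : IsWalk s t lab [((Sum.inl a : A ⊕ B), true)] (s a) u (lab a) :=
      ⟨rfl, 1, ⟨hs, rfl⟩, (mul_one _).symm⟩
    simpa [FreeGroup.invRev] using IsWalk.append (IsWalk.reverse hg) h1
  | (Sum.inr _, _) :: _, _, _, _, h => h.elim

/-- The exponent vector on variable edges. -/
noncomputable def evec {A B : Type} : (A ⊕ B) → (B →₀ ℚ) :=
  Sum.elim 0 fun b => Finsupp.single b 1

/-- A stage of the tower: a certificate that a coefficient loop is a product of conjugates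
of walks with trivial product and of equations with independent exponent vectors. -/
structure Stage (G : Type) [Group G] where
  A : Type
  B : Type
  V : Type
  J : Type
  s : A → V
  t : A → V
  lab : A → G
  r : J → List ((A ⊕ B) × Bool)
  a₀ : A
  loop : s a₀ = t a₀
  items : List (List ((A ⊕ B) × Bool) × (J ⊕ List ((A ⊕ B) × Bool)) × Bool)
  walks : ∀ u L ε, (u, Sum.inr L, ε) ∈ items → ∃ v, IsWalk s t lab L v v 1
  indep : LinearIndependent ℚ fun j => tot evec (r j)
  ident : FreeGroup.of (Sum.inl a₀) = (items.map fun x =>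
    FreeGroup.mk x.1 * (if x.2.2 then FreeGroup.mk (Sum.elim r id x.2.1)
      else (FreeGroup.mk (Sum.elim r id x.2.1))⁻¹) * (FreeGroup.mk x.1)⁻¹).prod

namespace Stage

variable (S : Stage G)

/-- The word of a face. -/
def face (c : S.J ⊕ List ((S.A ⊕ S.B) × Bool)) : List ((S.A ⊕ S.B) × Bool) := Sum.elim S.r id c

/-- All letter occurrences. -/
def occ : List ((S.A ⊕ S.B) × Bool) :=
  (Sum.inl S.a₀, true) :: S.items.flatMap fun x => x.1 ++ S.face x.2.1

/-- Endpoints of a letter. -/
def ends (x : (S.A ⊕ S.B) × Bool) : List S.V :=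
  match x.1 with
  | Sum.inl a => [S.s a, S.t a]
  | Sum.inr _ => []

/-- Number of distinct endpoints of coefficient edges in use. -/
noncomputable def nv : ℕ :=
  letI := Classical.decEq S.V
  (S.occ.flatMap S.ends).toFinset.card

/-- The coefficient edges in use. -/
def Used (a : S.A) : Prop := ∃ b, ((Sum.inl a : S.A ⊕ S.B), b) ∈ S.occ

end Stage

end Vale.Agent.P174.Indicable
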