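import Vale.Agent.P174.Indicable.Step

/-!
Termination of the tower.
-/

namespace Vale.Agent.P174.Indicable

variable {G : Type} [Group G]

namespace Stage

variable (S : Stage G)

lemma nv_le : S.nv ≤ 2 * S.occ.length := by
  classical
  refine le_trans (List.toFinset_card_le _) ?_
  rw [List.length_flatMap]
  have : ∀ x ∈ S.occ, (S.ends x).length ≤ 2 := by
    rintro ⟨a | b, ε⟩ _ <;> simp [ends]
  calc (S.occ.map fun x => (S.ends x).length).sum
      ≤ (S.occ.map fun _ => 2).sum := List.sum_le_sum this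
    _ = 2 * S.occ.length := by simp [mul_comm]

lemma exists_degree (ψ : S.coeffs →* Multiplicative ℤ) :
    ∃ (q : S.A ⊕ S.B → ℤ) (d : ℤ), d ≠ 0 ∧
      (∀ a (h : S.Used a), q (Sum.inl a) = d * Multiplicative.toAdd (ψ ⟨S.glab a, S.glab_mem h⟩)) ∧
      ∀ x ∈ S.items, tot q (S.face x.2.1) = 0 := by
  classical
  let qA : S.A → ℚ := fun a =>
    if h : S.Used a then ((Multiplicative.toAdd (ψ ⟨S.glab a, S.glab_mem h⟩) : ℤ) : ℚ) else 0
  obtain ⟨φ, hφ⟩ : ∃ φ : (S.B →₀ ℚ) →ₗ[ℚ] ℚ,
      ∀ j, φ (tot evec (S.r j)) = - tot (Sum.elim qA 0) (S.r j) := by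
    obtain ⟨φ, hφ⟩ := LinearMap.exists_extend
      ((Finsupp.linearCombination ℚ fun j => - tot (Sum.elim qA 0) (S.r j)).comp S.indep.repr)
    refine ⟨φ, fun j => ?_⟩
    have := LinearMap.congr_fun hφ ⟨_, Submodule.subset_span ⟨j, rfl⟩⟩
    simpa [LinearIndependent.repr_eq_single S.indep j ⟨_, Submodule.subset_span ⟨j, rfl⟩⟩ rfl]
      using this
  let qQ : S.A ⊕ S.B → ℚ := fun x => Sum.elim qA 0 x + φ (evec x)
  have hzero : ∀ x ∈ S.items, tot qQ (S.face x.2.1) = 0 := by
    rintro ⟨u, c, ε⟩ hx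
    have hT : ∀ L : List ((S.A ⊕ S.B) × Bool),
        tot (fun y => φ (evec y)) L = φ (tot evec L) := fun L =>
      (tot_map φ.toAddMonoidHom evec L).symm
    rw [tot_add (Sum.elim qA 0) (fun y => φ (evec y)), hT]
    rcases c with j | L
    · simp [face, hφ]
    · obtain ⟨v, hv⟩ := S.walks u L ε hx
      have hw := S.walk_inl hv
      have h1 : tot (evec : S.A ⊕ S.B → S.B →₀ ℚ) L = tot (fun _ => 0) L :=
        tot_congr fun y hy => by obtain ⟨a, ha⟩ := hw y hy; simp [ha, evec]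
      have h2 : tot (fun _ : S.A ⊕ S.B => (0 : S.B →₀ ℚ)) L = 0 := by
        have := tot_map (0 : (S.B →₀ ℚ) →+ (S.B →₀ ℚ)) (evec : S.A ⊕ S.B → _) L
        simpa using this.symm
      let fA : S.A ⊕ S.B → Multiplicative ℤ := Sum.elim
        (fun a => if h : S.Used a then ψ ⟨S.glab a, S.glab_mem h⟩ else 1) 1
      have h3 := S.face_walk_eval hx ψ fA fun a h => by simp [fA, h]
      have h4 : tot (fun y => Multiplicative.toAdd (fA y)) L = 0 := by
        have := lift_mk_eq_tot (fun y => Multiplicative.toAdd (fA y)) L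
        simp only [ofAdd_toAdd] at this
        rw [h3] at this
        exact (congrArg Multiplicative.toAdd this).symm
      have h5 := tot_map (Int.castAddHom ℚ) (fun y => Multiplicative.toAdd (fA y)) L
      rw [h4, map_zero] at h5
      simp only [face, Sum.elim_inr, id, h1, h2, map_zero, add_zero]
      rw [h5]
      refine tot_congr fun y hy => ?_
      obtain ⟨a, ha⟩ := hw y hy
      by_cases h : S.Used a <;> simp [ha, qA, fA, h]
  let d : ℤ := (S.occ.map fun x => ((qQ x.1).den : ℤ)).prod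
  have hd : d ≠ 0 := by
    refine List.prod_ne_zero fun h0 => ?_
    obtain ⟨x, -, hx⟩ := List.mem_map.1 h0
    exact (qQ x.1).den_ne_zero (by exact_mod_cast hx)
  let q : S.A ⊕ S.B → ℤ := fun x => ((d : ℚ) * qQ x).num
  have hq : ∀ x ∈ S.occ, (q x.1 : ℚ) = (d : ℚ) * qQ x.1 := by
    intro x hx
    obtain ⟨e, he⟩ : ((qQ x.1).den : ℤ) ∣ d := List.dvd_prod (List.mem_map.2 ⟨x, hx, rfl⟩)
    have h1 : (d : ℚ) * qQ x.1 = ((e * (qQ x.1).num : ℤ) : ℚ) := by
      rw [he]; push_cast
      rw [mul_comm ((qQ x.1).den : ℚ) (e : ℚ), mul_assoc, Rat.den_mul_eq_num]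
    simp only [q, h1, Rat.num_intCast]
  refine ⟨q, d, hd, fun a h => ?_, fun x hx => ?_⟩
  · obtain ⟨b, hb⟩ := h
    have := hq _ hb
    simp only [qQ, qA, Sum.elim_inl, evec, Pi.zero_apply, map_zero, add_zero,
      dif_pos (show S.Used a from ⟨b, hb⟩)] at this
    exact_mod_cast this
  · obtain ⟨u, c, ε⟩ := x
    have h1 := tot_map (Int.castAddHom ℚ) q (S.face c)
    have h2 := tot_map (AddMonoidHom.mulLeft (d : ℚ)) qQ (S.face c)
    rw [hzero _ hx, map_zero] at h2
    have h3 : tot (fun y => (Int.castAddHom ℚ) (q y)) (S.face c) = 0 := by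
      rw [h2]
      exact tot_congr fun y hy => hq y (S.mem_occ_face hx hy)
    rw [h3] at h1
    simpa using h1

lemma cover_occ_proj (q : S.A ⊕ S.B → ℤ) (h) :
    (S.cover q h).occ.map (fun x => (x.1.map Prod.fst Prod.fst, x.2)) = S.occ := by
  simp only [occ, cover, List.map_cons, List.map_flatMap, List.flatMap_map]
  refine congrArg₂ List.cons rfl (List.flatMap_congr fun x hx => ?_)
  obtain ⟨u, c | L, ε⟩ := x <;>
    exact (List.map_append).trans
      (congrArg₂ (· ++ ·) (S.relabel_proj q u 0) (S.relabel_proj q _ (tot q u)))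

lemma cover_ends (q : S.A ⊕ S.B → ℤ) (h) :
    ((S.cover q h).occ.flatMap (S.cover q h).ends).map Prod.fst = S.occ.flatMap S.ends := by
  refine Eq.trans List.map_flatMap ?_
  refine Eq.trans ?_ (congrArg (List.flatMap S.ends) (S.cover_occ_proj q h))
  refine Eq.trans ?_ (List.flatMap_map ..).symm
  refine List.flatMap_congr fun x _ => ?_
  obtain ⟨⟨a, k⟩ | ⟨b, k⟩, ε⟩ := x <;> rfl

lemma cover_length (q : S.A ⊕ S.B → ℤ) (h) : (S.cover q h).occ.length = S.occ.length := by
  have := congrArg List.length (S.cover_occ_proj q h)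
  simpa using this

lemma tot_eq_sub (q : S.A ⊕ S.B → ℤ) (g₀ : S.V → ℤ)
    (hq : ∀ a, S.Used a → q (Sum.inl a) = g₀ (S.t a) - g₀ (S.s a)) :
    ∀ {L : List ((S.A ⊕ S.B) × Bool)} {u v : S.V} {g : G},
      IsWalk S.s S.t S.lab L u v g → (∀ x ∈ L, ∀ a, x.1 = Sum.inl a → S.Used a) →
      tot q L = g₀ v - g₀ u
  | [], u, v, g, h, _ => by obtain ⟨rfl, -⟩ := h; simp [tot]
  | (Sum.inl a, b) :: L, u, v, g, h, hu => by
    have ha : S.Used a := hu _ List.mem_cons_self a rfl
    cases b
    · obtain ⟨rfl, g₁, hg, -⟩ := h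
      rw [tot, tot_eq_sub q g₀ hq hg fun x hx => hu x (List.mem_cons_of_mem _ hx), sgn]
      simp [hq a ha]
    · obtain ⟨rfl, g₁, hg, -⟩ := h
      rw [tot, tot_eq_sub q g₀ hq hg fun x hx => hu x (List.mem_cons_of_mem _ hx), sgn]
      simp [hq a ha]
  | (Sum.inr _, _) :: _, _, _, _, h, _ => h.elim

lemma nv_cover_gt (ψ : S.coeffs →* Multiplicative ℤ) (hψ : ψ ≠ 1) (q : S.A ⊕ S.B → ℤ) (d : ℤ)
    (hd : d ≠ 0)
    (hqA : ∀ a (h : S.Used a),
      q (Sum.inl a) = d * Multiplicative.toAdd (ψ ⟨S.glab a, S.glab_mem h⟩))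
    (h : ∀ x ∈ S.items, tot q (S.face x.2.1) = 0) : S.nv < (S.cover q h).nv := by
  classical
  set U' : Finset (S.V × ℤ) := ((S.cover q h).occ.flatMap (S.cover q h).ends).toFinset with hU'
  have hnv' : (S.cover q h).nv = U'.card := by
    unfold nv; rw [hU']; refine congrArg Finset.card (Finset.ext fun v => ?_); simp [List.mem_toFinset]
  have himg : (S.occ.flatMap S.ends).toFinset = U'.image Prod.fst := by
    rw [← S.cover_ends q h, hU']
    ext v
    rw [List.mem_toFinset, List.mem_map, Finset.mem_image]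
    constructor <;> rintro ⟨x, hx, rfl⟩
    · exact ⟨x, List.mem_toFinset.2 hx, rfl⟩
    · exact ⟨x, List.mem_toFinset.1 hx, rfl⟩
  have hnv : S.nv = (U'.image Prod.fst).card := by
    rw [← himg]; unfold nv; refine congrArg Finset.card (Finset.ext fun v => ?_); simp [List.mem_toFinset]
  rw [hnv, hnv']
  refine Finset.card_image_le.lt_of_ne fun hcard => hψ ?_
  have hinj := Finset.card_image_iff.1 hcard
  let g₀ : S.V → ℤ := fun v => if hv : ∃ k, (v, k) ∈ U' then hv.choose else 0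
  have hg₀ : ∀ v k, (v, k) ∈ U' → g₀ v = k := by
    intro v k hk
    have hv : ∃ k, (v, k) ∈ U' := ⟨k, hk⟩
    simp only [g₀, dif_pos hv]
    exact congrArg Prod.snd (hinj hv.choose_spec hk rfl)
  have hq : ∀ a, S.Used a → q (Sum.inl a) = g₀ (S.t a) - g₀ (S.s a) := by
    rintro a ⟨b, hb⟩
    rw [← S.cover_occ_proj q h] at hb
    obtain ⟨⟨⟨a', k⟩ | ⟨b', k⟩, ε⟩, hx, heq⟩ := List.mem_map.1 hb
    · obtain ⟨rfl, -⟩ : a' = a ∧ ε = b := by simpa using heq
      have h1 : (S.s a', k) ∈ U' := by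
        rw [hU', List.mem_toFinset]
        exact List.mem_flatMap.2 ⟨_, hx, List.mem_cons_self⟩
      have h2 : (S.t a', k + q (Sum.inl a')) ∈ U' := by
        rw [hU', List.mem_toFinset]
        exact List.mem_flatMap.2 ⟨_, hx, List.mem_cons_of_mem _ List.mem_cons_self⟩
      rw [hg₀ _ _ h1, hg₀ _ _ h2]
      ring
    · exact absurd (congrArg Prod.fst heq) Sum.inr_ne_inl
  -- the degree is a coboundary, so it vanishes on the gauged labels
  let χ : S.coeffs →* Multiplicative ℤ := (zpowGroupHom d).comp ψ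
  have hrep : ∀ v, g₀ v - g₀ (S.rep v)
      = Multiplicative.toAdd ((if hm : S.gauge (S.rep v) ∈ S.coeffs then χ ⟨_, hm⟩ else 1)) := by
    intro v
    have hu := (S.rep_reach v).choose_spec.choose_spec.2
    have hu' : ∀ x ∈ (S.rep_reach v).choose, ∀ a, x.1 = Sum.inl a → S.Used a := by
      intro x hx a ha
      obtain ⟨a', ha', hua⟩ := hu x hx
      rw [ha] at ha'
      exact (Sum.inl.inj ha') ▸ hua
    obtain ⟨hm, hev⟩ := S.walk_eval (S.gauge_walk v) hu'
    have hr : S.gauge (S.rep v) * S.gauge v * (S.gauge v)⁻¹ = S.gauge (S.rep v) := by group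
    have hm' : S.gauge (S.rep v) ∈ S.coeffs := hr ▸ hm
    have h1 := hev χ (fun x => Multiplicative.ofAdd (q x)) fun a ha => by
      simp only [χ, MonoidHom.comp_apply, zpowGroupHom_apply, hqA a ha]
      rw [← smul_eq_mul, ofAdd_zsmul, ofAdd_toAdd]
    rw [lift_mk_eq_tot, S.tot_eq_sub q g₀ hq (S.gauge_walk v) hu'] at h1
    rw [dif_pos hm', ← toAdd_ofAdd (g₀ v - g₀ (S.rep v)), h1]
    exact congrArg _ (congrArg χ (Subtype.ext hr))
  have hconst : ∀ v, g₀ v = g₀ (S.rep v) := fun v => by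
    have h1 := hrep v
    have h2 := hrep (S.rep v)
    rw [S.rep_rep] at h2
    omega
  have hz : ∀ a (ha : S.Used a), ψ ⟨S.glab a, S.glab_mem ha⟩ = 1 := by
    intro a ha
    have hr : S.rep (S.s a) = S.rep (S.t a) := congrArg Quotient.out <|
      Quotient.sound (s := S.reachSetoid)
        ⟨[(Sum.inl a, true)], S.lab a, ⟨rfl, 1, ⟨rfl, rfl⟩, (mul_one _).symm⟩,
          fun x hx => ⟨a, by simp [List.mem_singleton.1 hx], ha⟩⟩
    have h0 : q (Sum.inl a) = 0 := by rw [hq a ha, hconst (S.s a), hconst (S.t a), hr, sub_self]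
    rw [hqA a ha] at h0
    have := (mul_eq_zero.1 h0).resolve_left hd
    exact Multiplicative.toAdd.injective (by simpa using this)
  refine MonoidHom.ext fun x => ?_
  obtain ⟨x, hx⟩ := x
  induction hx using Subgroup.closure_induction with
  | mem y hy => obtain ⟨a, ha, rfl⟩ := hy; exact hz a ha
  | one => exact map_one ψ
  | mul y z hy hz' iy iz =>
    calc ψ (⟨y, hy⟩ * ⟨z, hz'⟩) = ψ ⟨y, hy⟩ * ψ ⟨z, hz'⟩ := map_mul ψ _ _
      _ = 1 := by simp only [MonoidHom.one_apply] at iy iz ⊢; rw [iy, iz, one_mul]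
  | inv y hy iy =>
    calc ψ (⟨y, hy⟩⁻¹) = (ψ ⟨y, hy⟩)⁻¹ := map_inv ψ _
      _ = 1 := by simp only [MonoidHom.one_apply] at iy ⊢; rw [iy, inv_one]

lemma lab_eq_one_of_solvable (hK : SystemsSolvable S.coeffs) : S.lab S.a₀ = 1 := by
  classical
  let B₀ : Finset S.B := (S.occ.filterMap fun x => x.1.getRight?).toFinset
  let J₀ : Finset S.J := (S.items.filterMap fun x => x.2.1.getLeft?).toFinset
  let eB : B₀ ≃ Fin B₀.card := B₀.equivFin
  let eJ : J₀ ≃ Fin J₀.card := J₀.equivFin
  let f : S.A ⊕ S.B → Monoid.Coprod S.coeffs (FreeGroup (Fin B₀.card)) := Sum.elim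
    (fun a => Monoid.Coprod.inl (if h : S.Used a then ⟨S.glab a, S.glab_mem h⟩ else 1))
    (fun b => if h : b ∈ B₀ then Monoid.Coprod.inr (FreeGroup.of (eB ⟨b, h⟩)) else 1)
  let w : Fin J₀.card → Monoid.Coprod S.coeffs (FreeGroup (Fin B₀.card)) :=
    fun i => FreeGroup.lift f (FreeGroup.mk (S.r (eJ.symm i)))
  let toB : (Fin B₀.card → ℚ) →ₗ[ℚ] (S.B →₀ ℚ) :=
    ∑ i, (Finsupp.lsingle (eB.symm i : S.B)).comp (LinearMap.proj i)
  have hexp : ∀ i, toB (fun l => ((Multiplicative.toAdd (exps (w i)) l : ℤ) : ℚ))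
      = tot evec (S.r (eJ.symm i)) := by
    intro i
    have h1 : exps (w i) = Multiplicative.ofAdd
        (tot (fun x => Multiplicative.toAdd (exps (f x))) (S.r (eJ.symm i))) := by
      rw [← lift_mk_eq_tot]
      simp only [ofAdd_toAdd, w]
      rw [← MonoidHom.comp_apply]
      congr 1
      ext x; simp
    let T : (Fin B₀.card → ℤ) →+ (S.B →₀ ℚ) :=
      { toFun := fun v => toB fun l => ((v l : ℤ) : ℚ)
        map_zero' := by simp only [Pi.zero_apply, Int.cast_zero]; exact map_zero toB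
        map_add' := fun v v' => by
          rw [← map_add]; congr 1; funext l; simp }
    change T (Multiplicative.toAdd (exps (w i))) = _
    rw [h1, toAdd_ofAdd, tot_map T]
    obtain ⟨⟨u, c, ε⟩, hx, hc⟩ :=
      List.mem_filterMap.1 (List.mem_toFinset.1 (eJ.symm i).2)
    rcases c with j | L
    swap; · simp at hc
    obtain rfl : j = (eJ.symm i : S.J) := by simpa using hc
    refine tot_congr fun x hx' => ?_
    have hocc : x ∈ S.occ := S.mem_occ_face hx hx'
    obtain ⟨a | b, β⟩ := x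
    · change toB _ = _
      simp [f, exps, evec, toB]
    · have hb : b ∈ B₀ := List.mem_toFinset.2 (List.mem_filterMap.2 ⟨_, hocc, rfl⟩)
      change toB _ = _
      simp only [f, Sum.elim_inr, dif_pos hb, exps, Monoid.Coprod.lift_apply_inr,
        FreeGroup.lift_apply_of, toAdd_ofAdd, evec, toB, LinearMap.coe_sum, Finset.sum_apply,
        LinearMap.comp_apply, LinearMap.proj_apply]
      rw [Finset.sum_eq_single (eB ⟨b, hb⟩) (fun l _ hl => by simp [hl])
        (fun hne => absurd (Finset.mem_univ _) hne)]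
      simp
  have hli : LinearIndependent ℚ
      fun i => fun l => ((Multiplicative.toAdd (exps (w i)) l : ℤ) : ℚ) := by
    refine LinearIndependent.of_comp toB ?_
    rw [show (toB ∘ fun i => fun l => ((Multiplicative.toAdd (exps (w i)) l : ℤ) : ℚ))
      = (fun j => tot evec (S.r j)) ∘ (fun i => (eJ.symm i : S.J)) from funext hexp]
    exact S.indep.comp _ (Subtype.val_injective.comp eJ.symm.injective)
  let N := Subgroup.normalClosure (Set.range w)
  have hmem : FreeGroup.lift f (FreeGroup.of (Sum.inl S.a₀)) ∈ N := by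
    rw [S.ident, map_list_prod, List.map_map]
    refine list_prod_mem fun y hy => ?_
    obtain ⟨⟨u, c, ε⟩, hx, rfl⟩ := List.mem_map.1 hy
    simp only [Function.comp_apply, map_mul, map_inv]
    refine Subgroup.normalClosure_normal.conj_mem _ ?_ _
    have hc : FreeGroup.lift f (FreeGroup.mk (Sum.elim S.r id c)) ∈ N := by
      rcases c with j | L
      · have hj : j ∈ J₀ := List.mem_toFinset.2 (List.mem_filterMap.2 ⟨_, hx, rfl⟩)
        exact Subgroup.subset_normalClosure ⟨eJ ⟨j, hj⟩, by simp [w]⟩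
      · simp only [Sum.elim_inr, id]
        rw [S.face_walk_eval hx Monoid.Coprod.inl f fun a ha => by simp [f, ha]]
        exact one_mem _
    cases ε
    · simp only [Bool.false_eq_true, if_false, map_inv]
      exact inv_mem hc
    · simp only [if_true]
      exact hc
  rw [FreeGroup.lift_apply_of] at hmem
  simp only [f, Sum.elim_inl, dif_pos S.used_a₀] at hmem
  have h1 : (⟨S.glab S.a₀, S.glab_mem S.used_a₀⟩ : S.coeffs) = 1 := by
    refine hK _ _ w hli ?_
    simp only [map_one, MonoidHom.coe_comp, Function.comp_apply]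
    exact (QuotientGroup.eq_one_iff _).2 hmem
  have h2 : S.glab S.a₀ = 1 := congrArg Subtype.val h1
  unfold glab at h2
  rw [← S.loop] at h2
  have h3 : S.lab S.a₀
      = (S.gauge (S.s S.a₀))⁻¹ * (S.gauge (S.s S.a₀) * S.lab S.a₀ * (S.gauge (S.s S.a₀))⁻¹)
        * S.gauge (S.s S.a₀) := by group
  rw [h3, h2]
  group

end Stage

/-- A stage forces its distinguished label to be trivial. -/
theorem lab_eq_one
    (hyp : ∀ K : Subgroup G, K.FG → (∀ ψ : K →* Multiplicative ℤ, ψ = 1) → SystemsSolvable K) :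
    ∀ (k : ℕ) (S : Stage G), 2 * S.occ.length - S.nv ≤ k → S.lab S.a₀ = 1 := by
  intro k
  induction k using Nat.strong_induction_on with
  | _ k ih =>
    intro S hk
    by_cases hK : ∀ ψ : S.coeffs →* Multiplicative ℤ, ψ = 1
    · exact S.lab_eq_one_of_solvable (hyp _ S.coeffs_fg hK)
    · obtain ⟨ψ, hψ⟩ := not_forall.1 hK
      obtain ⟨q, d, hd, hqA, hq⟩ := S.exists_degree ψ
      have h1 := S.nv_cover_gt ψ hψ q d hd hqA hq
      have h2 := (S.cover q hq).nv_le
      have h3 := S.cover_length q hq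
      exact ih (2 * (S.cover q hq).occ.length - (S.cover q hq).nv) (by omega) (S.cover q hq) le_rfl

end Vale.Agent.P174.Indicable
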