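import Vale.Agent.P174.Indicable.Basic

/-!
Gauging the coefficient edges along spanning forests.
-/

namespace Vale.Agent.P174.Indicable

variable {G : Type} [Group G] (S : Stage G)

namespace Stage

/-- Connected by a walk over edges in use. -/
def Reach (u v : S.V) : Prop :=
  ∃ (L : List ((S.A ⊕ S.B) × Bool)) (g : G), IsWalk S.s S.t S.lab L u v g ∧ ∀ x ∈ L, ∃ a, x.1 = Sum.inl a ∧ S.Used a

/-- Components. -/
def reachSetoid : Setoid S.V where
  r := S.Reach
  iseqv := {
    refl := fun u => ⟨[], 1, ⟨rfl, rfl⟩, by simp⟩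
    symm := by
      rintro u v ⟨L, g, h, hu⟩
      refine ⟨_, _, h.reverse, fun x hx => ?_⟩
      simp only [FreeGroup.invRev, List.mem_reverse, List.mem_map] at hx
      obtain ⟨y, hy, rfl⟩ := hx
      exact hu y hy
    trans := by
      rintro u v w ⟨L, g, h, hu⟩ ⟨L', g', h', hu'⟩
      exact ⟨_, _, h.append h', fun x hx => (List.mem_append.1 hx).elim (hu x) (hu' x)⟩ }

/-- Representative of a component. -/
noncomputable def rep (v : S.V) : S.V := (Quotient.mk S.reachSetoid v).out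

lemma rep_reach (v : S.V) : S.Reach (S.rep v) v :=
  Quotient.exact (s := S.reachSetoid) (Quotient.out_eq _)

lemma rep_rep (v : S.V) : S.rep (S.rep v) = S.rep v := by
  unfold rep
  rw [Quotient.out_eq]

/-- The gauge. -/
noncomputable def gauge (v : S.V) : G := (S.rep_reach v).choose_spec.choose

lemma gauge_walk (v : S.V) :
    IsWalk S.s S.t S.lab (S.rep_reach v).choose (S.rep v) v (S.gauge v) :=
  (S.rep_reach v).choose_spec.choose_spec.1

/-- Gauged label. -/
noncomputable def glab (a : S.A) : G := S.gauge (S.s a) * S.lab a * (S.gauge (S.t a))⁻¹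

/-- The coefficient group of a stage. -/
noncomputable def coeffs : Subgroup G := Subgroup.closure (S.glab '' {a | S.Used a})

lemma glab_mem {a : S.A} (h : S.Used a) : S.glab a ∈ S.coeffs :=
  Subgroup.subset_closure ⟨a, h, rfl⟩

lemma used_finite : {a | S.Used a}.Finite := by
  have h1 : {x : (S.A ⊕ S.B) | ∃ b, (x, b) ∈ S.occ}.Finite :=
    (S.occ.finite_toSet.image Prod.fst).subset fun x hx => ⟨(x, hx.choose), hx.choose_spec, rfl⟩
  exact (h1.preimage (f := Sum.inl) Sum.inl_injective.injOn).subset fun a ha => ha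

lemma coeffs_fg : S.coeffs.FG :=
  (Subgroup.fg_iff _).2 ⟨_, rfl, S.used_finite.image _⟩

lemma mem_occ_face {u : List ((S.A ⊕ S.B) × Bool)} {c ε} (h : (u, c, ε) ∈ S.items)
    {x} (hx : x ∈ S.face c) : x ∈ S.occ :=
  List.mem_cons_of_mem _ (List.mem_flatMap.2 ⟨_, h, List.mem_append_right _ hx⟩)

lemma used_of_mem {x : (S.A ⊕ S.B) × Bool} {a : S.A} (h : x ∈ S.occ) (ha : x.1 = Sum.inl a) :
    S.Used a := ⟨x.2, by rw [← ha]; exact h⟩

lemma used_a₀ : S.Used S.a₀ := ⟨true, List.mem_cons_self⟩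

/-- A walk over edges in use evaluates to its gauged product in the coefficient group. -/
lemma walk_eval :
    ∀ {L : List ((S.A ⊕ S.B) × Bool)} {u v : S.V} {g : G},
      IsWalk S.s S.t S.lab L u v g → (∀ x ∈ L, ∀ a, x.1 = Sum.inl a → S.Used a) →
      ∃ hm : S.gauge u * g * (S.gauge v)⁻¹ ∈ S.coeffs,
        ∀ {M : Type} [Group M] (χ : S.coeffs →* M) (f : S.A ⊕ S.B → M),
          (∀ a (h : S.Used a), f (Sum.inl a) = χ ⟨S.glab a, S.glab_mem h⟩) →
          FreeGroup.lift f (FreeGroup.mk L) = χ ⟨_, hm⟩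
  | [], u, v, g, h, _ => by
    obtain ⟨rfl, rfl⟩ := h
    have h1 : S.gauge u * 1 * (S.gauge u)⁻¹ = 1 := by group
    refine ⟨by rw [h1]; exact one_mem _, fun χ f _ => ?_⟩
    rw [← FreeGroup.one_eq_mk, map_one, ← map_one χ]
    exact congrArg χ (Subtype.ext h1.symm)
  | (Sum.inl a, b) :: L, u, v, g, h, hu => by
    have ha : S.Used a := hu _ List.mem_cons_self a rfl
    cases b
    · obtain ⟨rfl, g₀, hg, rfl⟩ := h
      obtain ⟨hm, hev⟩ := walk_eval hg fun x hx => hu x (List.mem_cons_of_mem _ hx)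
      have h1 : S.gauge (S.t a) * ((S.lab a)⁻¹ * g₀) * (S.gauge v)⁻¹
          = (S.glab a)⁻¹ * (S.gauge (S.s a) * g₀ * (S.gauge v)⁻¹) := by
        unfold glab; group
      have hm' := mul_mem (inv_mem (S.glab_mem ha)) hm
      refine ⟨h1 ▸ hm', fun χ f hf => ?_⟩
      have hs : FreeGroup.mk ((Sum.inl a, false) :: L)
          = (FreeGroup.of (Sum.inl a : S.A ⊕ S.B))⁻¹ * FreeGroup.mk L := rfl
      rw [hs, map_mul, map_inv, FreeGroup.lift_apply_of, hf a ha, hev χ f hf,
        ← map_inv, ← map_mul]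
      exact congrArg χ (Subtype.ext h1.symm)
    · obtain ⟨rfl, g₀, hg, rfl⟩ := h
      obtain ⟨hm, hev⟩ := walk_eval hg fun x hx => hu x (List.mem_cons_of_mem _ hx)
      have h1 : S.gauge (S.s a) * (S.lab a * g₀) * (S.gauge v)⁻¹
          = S.glab a * (S.gauge (S.t a) * g₀ * (S.gauge v)⁻¹) := by
        unfold glab; group
      have hm' := mul_mem (S.glab_mem ha) hm
      refine ⟨h1 ▸ hm', fun χ f hf => ?_⟩
      have hs : FreeGroup.mk ((Sum.inl a, true) :: L)
          = FreeGroup.of (Sum.inl a : S.A ⊕ S.B) * FreeGroup.mk L := rfl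
      rw [hs, map_mul, FreeGroup.lift_apply_of, hf a ha, hev χ f hf, ← map_mul]
      exact congrArg χ (Subtype.ext h1.symm)
  | (Sum.inr _, _) :: _, _, _, _, h, _ => h.elim

lemma face_walk_eval {u L ε} (h : (u, Sum.inr L, ε) ∈ S.items) {M : Type} [Group M]
    (χ : S.coeffs →* M) (f : S.A ⊕ S.B → M)
    (hf : ∀ a (h : S.Used a), f (Sum.inl a) = χ ⟨S.glab a, S.glab_mem h⟩) :
    FreeGroup.lift f (FreeGroup.mk L) = 1 := by
  obtain ⟨v, hv⟩ := S.walks u L ε h
  obtain ⟨hm, hev⟩ := S.walk_eval hv fun x hx a ha =>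
    S.used_of_mem (S.mem_occ_face h (c := Sum.inr L) hx) ha
  rw [hev χ f hf, ← map_one χ]
  exact congrArg χ (Subtype.ext (by simp))

end Stage

end Vale.Agent.P174.Indicable
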