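import Vale.Agent.P174.Indicable.Descent

/-!
Closure of solvability of nonsingular systems under indicable quotients.
-/

namespace Vale.Agent.P174.Indicable

variable {G : Type} [Group G]

/-- Triangle of the multiplication table. -/
def triangle {n : ℕ} (p : G × G) : List ((G ⊕ Fin n) × Bool) :=
  [(Sum.inl p.1, true), (Sum.inl p.2, true), (Sum.inl (p.1 * p.2), false)]

lemma tot_evec_row {n : ℕ} (L : List ((G ⊕ Fin n) × Bool)) :
    (fun l => ((Multiplicative.toAdd (exps (FreeGroup.lift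
      (Sum.elim (fun a => (Monoid.Coprod.inl a : Monoid.Coprod G (FreeGroup (Fin n))))
        (fun b => Monoid.Coprod.inr (FreeGroup.of b))) (FreeGroup.mk L))) l : ℤ) : ℚ))
      = ⇑(tot evec L) := by
  set f : G ⊕ Fin n → Monoid.Coprod G (FreeGroup (Fin n)) :=
    Sum.elim (fun a => Monoid.Coprod.inl a) (fun b => Monoid.Coprod.inr (FreeGroup.of b)) with hf
  have h1 : exps (FreeGroup.lift f (FreeGroup.mk L))
      = Multiplicative.ofAdd (tot (fun x => Multiplicative.toAdd (exps (f x))) L) := by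
    rw [← lift_mk_eq_tot]
    simp only [ofAdd_toAdd]
    rw [← MonoidHom.comp_apply]
    congr 1
    ext x; simp
  let T : (Fin n → ℤ) →+ (Fin n → ℚ) := (Int.castAddHom ℚ).compLeft (Fin n)
  change T (Multiplicative.toAdd (exps (FreeGroup.lift f (FreeGroup.mk L)))) = _
  rw [h1, toAdd_ofAdd, tot_map T]
  change _ = Finsupp.coeFnAddHom (tot evec L)
  rw [tot_map (Finsupp.coeFnAddHom : (Fin n →₀ ℚ) →+ (Fin n → ℚ))]
  refine tot_congr fun x _ => ?_
  obtain ⟨a | b, ε⟩ := x <;> funext l
  · simp [hf, exps, evec, T]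
  · by_cases h : l = b
    · subst h; simp [hf, exps, evec, T]
    · simp [hf, exps, evec, T, h]

theorem systemsSolvable_of_indicable
    (hyp : ∀ K : Subgroup G, K.FG → (∀ ψ : K →* Multiplicative ℤ, ψ = 1) → SystemsSolvable K) :
    SystemsSolvable G := by
  classical
  intro m n w hw
  refine (injective_iff_map_eq_one _).2 fun g hg => ?_
  let f : G ⊕ Fin n → Monoid.Coprod G (FreeGroup (Fin n)) :=
    Sum.elim (fun a => Monoid.Coprod.inl a) (fun b => Monoid.Coprod.inr (FreeGroup.of b))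
  have hsurj : ∀ x, ∃ y, FreeGroup.lift f y = x := by
    intro x
    induction x using Monoid.Coprod.induction_on with
    | inl a => exact ⟨FreeGroup.of (Sum.inl a), by simp [f]⟩
    | inr b =>
      refine ⟨FreeGroup.map Sum.inr b, ?_⟩
      have : (FreeGroup.lift f).comp (FreeGroup.map Sum.inr) = Monoid.Coprod.inr := by
        ext i; simp [f]
      exact DFunLike.congr_fun this b
    | mul x y hx hy =>
      obtain ⟨x', rfl⟩ := hx
      obtain ⟨y', rfl⟩ := hy
      exact ⟨x' * y', map_mul _ _ _⟩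
  choose pre hpre using hsurj
  let r : Fin m → List ((G ⊕ Fin n) × Bool) := fun j => (pre (w j)).toWord
  have hr : ∀ j, FreeGroup.lift f (FreeGroup.mk (r j)) = w j := fun j => by
    simp only [r, FreeGroup.mk_toWord, hpre]
  let R : Set (FreeGroup (G ⊕ Fin n)) :=
    Set.range (fun j => FreeGroup.mk (r j)) ∪ Set.range (fun p => FreeGroup.mk (triangle p))
  let N₀ := Subgroup.normalClosure R
  let φ : G →* FreeGroup (G ⊕ Fin n) ⧸ N₀ :=
    MonoidHom.mk' (fun a => QuotientGroup.mk' N₀ (FreeGroup.of (Sum.inl a))) fun a b => by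
      have h : QuotientGroup.mk' N₀ (FreeGroup.mk (triangle (a, b))) = 1 :=
        (QuotientGroup.eq_one_iff _).2 (Subgroup.subset_normalClosure (Or.inr ⟨(a, b), rfl⟩))
      have h' : FreeGroup.mk (triangle (n := n) (a, b)) = FreeGroup.of (Sum.inl a)
          * FreeGroup.of (Sum.inl b) * (FreeGroup.of (Sum.inl (a * b)))⁻¹ := rfl
      rw [h', map_mul, map_mul, map_inv, mul_inv_eq_one] at h
      exact h.symm
  let σ : Monoid.Coprod G (FreeGroup (Fin n)) →* FreeGroup (G ⊕ Fin n) ⧸ N₀ :=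
    Monoid.Coprod.lift φ ((QuotientGroup.mk' N₀).comp (FreeGroup.map Sum.inr))
  have hσ : σ.comp (FreeGroup.lift f) = QuotientGroup.mk' N₀ := by
    ext x; obtain a | b := x <;> simp [σ, φ, f]
  have hle : Subgroup.normalClosure (Set.range w) ≤ σ.ker := by
    refine Subgroup.normalClosure_le_normal ?_
    rintro _ ⟨j, rfl⟩
    change σ (w j) = 1
    rw [← hr j, ← MonoidHom.comp_apply, hσ]
    exact (QuotientGroup.eq_one_iff _).2 (Subgroup.subset_normalClosure (Or.inl ⟨j, rfl⟩))
  have hmem : FreeGroup.of (Sum.inl g : G ⊕ Fin n) ∈ N₀ := by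
    have h := hle ((QuotientGroup.eq_one_iff _).1 hg)
    have h' : σ (Monoid.Coprod.inl g) = 1 := h
    simp only [σ, φ, Monoid.Coprod.lift_apply_inl, MonoidHom.mk'_apply] at h'
    exact (QuotientGroup.eq_one_iff _).1 h'
  let Item := List ((G ⊕ Fin n) × Bool) × (Fin m ⊕ List ((G ⊕ Fin n) × Bool)) × Bool
  let val : Item → FreeGroup (G ⊕ Fin n) := fun x => FreeGroup.mk x.1 *
    (if x.2.2 then FreeGroup.mk (Sum.elim r id x.2.1)
      else (FreeGroup.mk (Sum.elim r id x.2.1))⁻¹) * (FreeGroup.mk x.1)⁻¹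
  have key : ∀ z ∈ N₀, ∃ l : List Item,
      (∀ x ∈ l, ∀ L, x.2.1 = Sum.inr L → ∃ p, L = triangle p) ∧ z = (l.map val).prod := by
    intro z hz
    induction hz using Subgroup.closure_induction with
    | mem x hx =>
      obtain ⟨a, ha, hc⟩ := Group.mem_conjugatesOfSet_iff.1 hx
      obtain ⟨c, rfl⟩ := isConj_iff.1 hc
      rcases ha with ⟨j, rfl⟩ | ⟨p, rfl⟩
      · exact ⟨[(c.toWord, Sum.inl j, true)], by simp, by
          simp only [List.map_cons, List.map_nil, List.prod_cons, List.prod_nil, mul_one, val,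
            if_true, Sum.elim_inr, Sum.elim_inl, id, FreeGroup.mk_toWord]⟩
      · refine ⟨[(c.toWord, Sum.inr (triangle p), true)], ?_, by
          simp only [List.map_cons, List.map_nil, List.prod_cons, List.prod_nil, mul_one, val,
            if_true, Sum.elim_inr, Sum.elim_inl, id, FreeGroup.mk_toWord]⟩
        intro x hx L hL
        rw [List.mem_singleton.1 hx] at hL
        exact ⟨p, (Sum.inr.inj hL).symm⟩
    | one => exact ⟨[], by simp, by simp⟩
    | mul x y _ _ hx hy =>
      obtain ⟨l, hl, rfl⟩ := hx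
      obtain ⟨l', hl', rfl⟩ := hy
      exact ⟨l ++ l', fun x hx => (List.mem_append.1 hx).elim (hl x) (hl' x), by simp⟩
    | inv x _ hx =>
      obtain ⟨l, hl, rfl⟩ := hx
      refine ⟨(l.map fun x => (x.1, x.2.1, !x.2.2)).reverse, fun x hx => ?_, ?_⟩
      · obtain ⟨y, hy, rfl⟩ := List.mem_map.1 (List.mem_reverse.1 hx)
        exact hl y hy
      · rw [List.prod_inv_reverse, List.map_map, List.map_reverse, List.map_map]
        congr 1
        refine congrArg List.reverse (List.map_congr_left fun x _ => ?_)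
        obtain ⟨u, c, ε⟩ := x
        cases ε <;> simp [val, mul_assoc]
  obtain ⟨l, hl, hident⟩ := key _ hmem
  refine lab_eq_one hyp _ (
    { A := G, B := Fin n, V := Unit, J := Fin m
      s := fun _ => (), t := fun _ => (), lab := id, r := r, a₀ := g, loop := rfl
      items := l
      walks := ?_
      indep := ?_
      ident := hident } : Stage G) le_rfl
  · intro u L ε hm
    obtain ⟨⟨a, b⟩, rfl⟩ := hl _ hm L rfl
    exact ⟨(), rfl, _, ⟨rfl, _, ⟨rfl, 1, ⟨rfl, rfl⟩, rfl⟩, rfl⟩, by simp [mul_assoc]⟩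
  · refine LinearIndependent.of_comp (Finsupp.lcoeFun : (Fin n →₀ ℚ) →ₗ[ℚ] (Fin n → ℚ)) ?_
    convert hw using 1
    funext j
    change ⇑(tot evec (r j)) = _
    rw [← tot_evec_row (r j)]
    exact congrArg (fun x => fun l => ((Multiplicative.toAdd (exps x) l : ℤ) : ℚ)) (hr j)

theorem systemsSolvable_of_comm (h : ∀ a b : G, a * b = b * a) : SystemsSolvable G := by
  intro m n w hw
  letI : CommGroup G := { (inferInstance : Group G) with mul_comm := h }
  refine (injective_iff_map_eq_one _).2 fun g hg => ?_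
  let χ : Monoid.Coprod G (FreeGroup (Fin n)) →* G × Multiplicative (Fin n → ℤ) :=
    (Monoid.Coprod.fst).prod exps
  have hmem := (QuotientGroup.eq_one_iff _).1 hg
  have key : ∀ x ∈ Subgroup.normalClosure (Set.range w),
      ∃ c : Fin m → ℤ, χ x = ∏ i, χ (w i) ^ c i := by
    intro x hx
    induction hx using Subgroup.closure_induction with
    | mem y hy =>
      obtain ⟨a, ⟨i, rfl⟩, hc⟩ := Group.mem_conjugatesOfSet_iff.1 hy
      obtain ⟨c, rfl⟩ := isConj_iff.1 hc
      refine ⟨Pi.single i 1, ?_⟩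
      rw [Finset.prod_eq_single i (fun b _ hb => by simp [hb]) (by simp)]
      simp [mul_comm (χ c)]
    | one => exact ⟨0, by simp⟩
    | mul a b _ _ ha hb =>
      obtain ⟨c, hc⟩ := ha
      obtain ⟨c', hc'⟩ := hb
      exact ⟨c + c', by simp [map_mul, hc, hc', zpow_add, Finset.prod_mul_distrib]⟩
    | inv a _ ha =>
      obtain ⟨c, hc⟩ := ha
      exact ⟨-c, by simp [map_inv, hc, zpow_neg, Finset.prod_inv_distrib]⟩
  obtain ⟨c, hc⟩ := key _ hmem
  have h1 := congrArg (MonoidHom.snd G (Multiplicative (Fin n → ℤ))) hc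
  simp only [χ, map_prod, map_zpow, MonoidHom.coe_snd, MonoidHom.prod_apply] at h1
  have h2 : ∀ l, ∑ i, c i * Multiplicative.toAdd (exps (w i)) l = 0 := fun l => by
    have := congrArg (fun z : Multiplicative (Fin n → ℤ) => Multiplicative.toAdd z l) h1
    simp [exps, Finset.sum_apply, toAdd_prod, toAdd_zpow, Monoid.Coprod.lift_apply_inl] at this
    simpa [exps] using this.symm
  have h3 : ∑ i, (c i : ℚ) • (fun l => ((Multiplicative.toAdd (exps (w i)) l : ℤ) : ℚ)) = 0 := by
    funext l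
    have := congrArg (fun z : ℤ => (z : ℚ)) (h2 l)
    simpa using this
  have h4 : ∀ i, c i = 0 := fun i => by
    exact_mod_cast Fintype.linearIndependent_iff.1 hw (fun i => (c i : ℚ)) h3 i
  have h5 : χ (Monoid.Coprod.inl g) = 1 := by
    rw [hc]; simp [h4]
  simpa [χ] using congrArg Prod.fst h5

theorem systemsSolvable_of_abelian_kernel (N : Subgroup G) [N.Normal]
    (hN : ∀ a ∈ N, ∀ b ∈ N, a * b = b * a)
    (hQ : ∀ K : Subgroup (G ⧸ N), K.FG → (∀ ψ : K →* Multiplicative ℤ, ψ = 1) → K = ⊥) :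
    SystemsSolvable G := by
  refine systemsSolvable_of_indicable fun K hK hψ => systemsSolvable_of_comm ?_
  have hbot : K.map (QuotientGroup.mk' N) = ⊥ := by
    have hfg : (K.map (QuotientGroup.mk' N)).FG := by
      obtain ⟨T, hT⟩ := (Subgroup.fg_iff _).1 hK
      exact (Subgroup.fg_iff _).2
        ⟨QuotientGroup.mk' N '' T, by rw [← MonoidHom.map_closure, hT.1], hT.2.image _⟩
    refine hQ _ hfg fun ψ => MonoidHom.ext fun y => ?_
    obtain ⟨y, x, hx, rfl⟩ := y
    exact DFunLike.congr_fun (hψ (ψ.comp ((QuotientGroup.mk' N).subgroupMap K))) ⟨x, hx⟩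
  have hKN : K ≤ N := fun x hx =>
    (QuotientGroup.eq_one_iff x).1 (Subgroup.mem_bot.1 (hbot ▸ ⟨x, hx, rfl⟩))
  intro a b
  exact Subtype.ext (hN _ (hKN a.2) _ (hKN b.2))

end Vale.Agent.P174.Indicable
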