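import Vale.Agent.P174.Indicable.Gauge

/-!
One step of the tower: passing to the infinite cyclic cover of a degree function.
-/

namespace Vale.Agent.P174.Indicable

variable {G : Type} [Group G] (S : Stage G)

namespace Stage

/-- Place an edge at a height. -/
def pk (x : S.A ⊕ S.B) (k : ℤ) : (S.A × ℤ) ⊕ (S.B × ℤ) := x.map (fun a => (a, k)) (fun b => (b, k))

/-- Lift of a word to the cover. -/
def relabel (q : S.A ⊕ S.B → ℤ) (L : List ((S.A ⊕ S.B) × Bool)) (h : ℤ) :
    List (((S.A × ℤ) ⊕ (S.B × ℤ)) × Bool) :=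
  (liftWord q L h).map fun x => (S.pk x.1.1 x.1.2, x.2)

lemma relabel_proj (q : S.A ⊕ S.B → ℤ) (L h) :
    (S.relabel q L h).map (fun x => (x.1.map Prod.fst Prod.fst, x.2)) = L := by
  refine Eq.trans ?_ (liftWord_proj q L h)
  rw [relabel, List.map_map]
  refine List.map_congr_left fun x _ => ?_
  obtain ⟨⟨a | b, k⟩, ε⟩ := x <;> rfl

/-- Lift of a face. -/
def liftFace (q : S.A ⊕ S.B → ℤ) (c : S.J ⊕ List ((S.A ⊕ S.B) × Bool)) (h : ℤ) :
    (S.J × ℤ) ⊕ List (((S.A × ℤ) ⊕ (S.B × ℤ)) × Bool) :=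
  c.map (fun j => (j, h)) (fun L => S.relabel q L h)

lemma walk_lift (q : S.A ⊕ S.B → ℤ) :
    ∀ {L : List ((S.A ⊕ S.B) × Bool)} {u v : S.V} {g : G} (h : ℤ),
      IsWalk S.s S.t S.lab L u v g →
      IsWalk (fun a : S.A × ℤ => (S.s a.1, a.2)) (fun a => (S.t a.1, a.2 + q (Sum.inl a.1)))
        (fun a => S.lab a.1) (S.relabel q L h) (u, h) (v, h + tot q L) g
  | [], u, v, g, h, hw => by
    obtain ⟨rfl, rfl⟩ := hw
    simp [relabel, liftWord, IsWalk, tot]
  | (Sum.inl a, true) :: L, u, v, _, h, hw => by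
    obtain ⟨rfl, g₀, hg, rfl⟩ := hw
    refine ⟨rfl, g₀, ?_, rfl⟩
    simpa [tot, sgn, add_assoc, relabel] using walk_lift q (h + q (Sum.inl a)) hg
  | (Sum.inl a, false) :: L, u, v, _, h, hw => by
    obtain ⟨rfl, g₀, hg, rfl⟩ := hw
    refine ⟨by simp, g₀, ?_, rfl⟩
    simpa [tot, sgn, add_assoc, sub_eq_add_neg, relabel] using
      walk_lift q (h - q (Sum.inl a)) hg
  | (Sum.inr _, _) :: _, _, _, _, _, hw => hw.elim

lemma walk_inl : ∀ {L : List ((S.A ⊕ S.B) × Bool)} {u v : S.V} {g : G},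
    IsWalk S.s S.t S.lab L u v g → ∀ x ∈ L, ∃ a, x.1 = Sum.inl a
  | [], _, _, _, _, x, hx => absurd hx List.not_mem_nil
  | (Sum.inl a, b) :: L, u, v, g, h, x, hx => by
    rcases List.mem_cons.1 hx with h' | h'
    · exact ⟨a, by rw [h']⟩
    · cases b
      · obtain ⟨-, g₀, hg, -⟩ := h; exact walk_inl hg x h'
      · obtain ⟨-, g₀, hg, -⟩ := h; exact walk_inl hg x h'
  | (Sum.inr _, _) :: _, _, _, _, h, _, _ => h.elim

lemma sum_shift_pow (s : Finset ℤ) (c : ℤ → ℚ) (p : ℕ)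
    (h : ∀ i < p, ∑ k ∈ s, c k * (k : ℚ) ^ i = 0) (δ : ℤ) :
    ∑ k ∈ s, c k * ((k + δ : ℤ) : ℚ) ^ p = ∑ k ∈ s, c k * (k : ℚ) ^ p := by
  simp only [Int.cast_add, add_pow, Finset.mul_sum]
  rw [Finset.sum_comm, Finset.sum_range_succ]
  simp only [Nat.choose_self, Nat.sub_self, pow_zero, mul_one, Nat.cast_one]
  refine add_eq_right.2 (Finset.sum_eq_zero fun i hi => ?_)
  calc ∑ k ∈ s, c k * ((k : ℚ) ^ i * (δ : ℚ) ^ (p - i) * (p.choose i : ℚ))
      = (∑ k ∈ s, c k * (k : ℚ) ^ i) * ((δ : ℚ) ^ (p - i) * (p.choose i : ℚ)) := by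
        rw [Finset.sum_mul]; exact Finset.sum_congr rfl fun k _ => by ring
    _ = 0 := by rw [h i (Finset.mem_range.1 hi), zero_mul]

lemma moment_relabel (q : S.A ⊕ S.B → ℤ) (s : Finset ℤ) (c : ℤ → ℚ) (p : ℕ)
    (h : ∀ i < p, ∑ k ∈ s, c k * (k : ℚ) ^ i = 0) :
    ∀ (L : List ((S.A ⊕ S.B) × Bool)) (δ : ℤ),
      ∑ k ∈ s, c k • Finsupp.linearCombination ℚ
          (fun x : S.B × ℤ => Finsupp.single x.1 ((x.2 : ℚ) ^ p))
          (tot evec (S.relabel q L (k + δ)))
        = (∑ k ∈ s, c k * (k : ℚ) ^ p) • tot evec L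
  | [], δ => by simp [relabel, liftWord, tot]
  | (e, b) :: L, δ => by
    have key : ∀ δ₁ δ₂ : ℤ, (∀ k, S.relabel q ((e, b) :: L) (k + δ)
          = (S.pk e (k + δ₁), b) :: S.relabel q L (k + δ₂)) →
        ∑ k ∈ s, c k • Finsupp.linearCombination ℚ
          (fun x : S.B × ℤ => Finsupp.single x.1 ((x.2 : ℚ) ^ p))
          (tot evec (S.relabel q ((e, b) :: L) (k + δ)))
        = (∑ k ∈ s, c k * (k : ℚ) ^ p) • tot evec ((e, b) :: L) := by
      intro δ₁ δ₂ hk
      simp only [hk, tot, map_add, smul_add, Finset.sum_add_distrib,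
        moment_relabel q s c p h L δ₂]
      congr 1
      rcases e with a | b'
      · simp [pk, evec, sgn]
      · cases b
        · simp only [pk, evec, sgn, Sum.map_inr, Sum.elim_inr, Bool.false_eq_true, if_false,
            map_neg, Finsupp.linearCombination_single, one_smul, smul_neg,
            Finset.sum_neg_distrib, Finsupp.smul_single, smul_eq_mul, mul_one]
          rw [← Finsupp.single_finsetSum, sum_shift_pow s c p h]
        · simp only [pk, evec, sgn, Sum.map_inr, Sum.elim_inr, if_true,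
            Finsupp.linearCombination_single, one_smul,
            Finsupp.smul_single, smul_eq_mul, mul_one]
          rw [← Finsupp.single_finsetSum, sum_shift_pow s c p h]
    cases b
    · exact key (δ - q e) (δ - q e) fun k => by simp [relabel, liftWord, add_sub_assoc]
    · exact key δ (δ + q e) fun k => by simp [relabel, liftWord, add_assoc]

lemma endAt_item (q : S.A ⊕ S.B → ℤ) (u F : List ((S.A ⊕ S.B) × Bool)) (ε : Bool)
    (hF : tot q F = 0) (w : FreeGroup ((S.A × ℤ) ⊕ (S.B × ℤ))) :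
    endAt q S.pk (FreeGroup.mk u * (if ε then FreeGroup.mk F else (FreeGroup.mk F)⁻¹)
        * (FreeGroup.mk u)⁻¹) (w, 0)
      = (w * (FreeGroup.mk (S.relabel q u 0)
          * (if ε then FreeGroup.mk (S.relabel q F (tot q u))
              else (FreeGroup.mk (S.relabel q F (tot q u)))⁻¹)
          * (FreeGroup.mk (S.relabel q u 0))⁻¹), 0) := by
  simp only [relabel, endAt_mul, endAt_mk, zero_add]
  cases ε
  · simp only [Bool.false_eq_true, if_false]
    have h1 := endAt_inv_mk q S.pk F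
      (w * FreeGroup.mk ((liftWord q u 0).map fun x => (S.pk x.1.1 x.1.2, x.2))) (tot q u)
    rw [hF, add_zero] at h1
    rw [h1]
    have h2 := endAt_inv_mk q S.pk u
      (w * FreeGroup.mk ((liftWord q u 0).map fun x => (S.pk x.1.1 x.1.2, x.2)) *
        (FreeGroup.mk ((liftWord q F (tot q u)).map fun x => (S.pk x.1.1 x.1.2, x.2)))⁻¹) 0
    rw [zero_add] at h2
    rw [h2]
    simp only [mul_assoc]
  · simp only [if_true, endAt_mk, hF, add_zero]
    have h2 := endAt_inv_mk q S.pk u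
      (w * FreeGroup.mk ((liftWord q u 0).map fun x => (S.pk x.1.1 x.1.2, x.2)) *
        FreeGroup.mk ((liftWord q F (tot q u)).map fun x => (S.pk x.1.1 x.1.2, x.2))) 0
    rw [zero_add] at h2
    rw [h2]
    simp only [mul_assoc]

lemma endAt_items (q : S.A ⊕ S.B → ℤ) :
    ∀ (l : List (List ((S.A ⊕ S.B) × Bool) × (S.J ⊕ List ((S.A ⊕ S.B) × Bool)) × Bool)),
      (∀ x ∈ l, tot q (S.face x.2.1) = 0) → ∀ w,
      endAt q S.pk ((l.map fun x => FreeGroup.mk x.1 * (if x.2.2
        then FreeGroup.mk (S.face x.2.1) else (FreeGroup.mk (S.face x.2.1))⁻¹)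
        * (FreeGroup.mk x.1)⁻¹).prod) (w, 0)
      = (w * (l.map fun x => FreeGroup.mk (S.relabel q x.1 0) * (if x.2.2
        then FreeGroup.mk (S.relabel q (S.face x.2.1) (tot q x.1))
        else (FreeGroup.mk (S.relabel q (S.face x.2.1) (tot q x.1)))⁻¹)
        * (FreeGroup.mk (S.relabel q x.1 0))⁻¹).prod, 0)
  | [], _, w => by simp [endAt]
  | x :: l, h, w => by
    rw [List.map_cons, List.prod_cons, endAt_mul,
      S.endAt_item q x.1 _ x.2.2 (h x List.mem_cons_self) w,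
      endAt_items q l (fun y hy => h y (List.mem_cons_of_mem _ hy)) _,
      List.map_cons, List.prod_cons, mul_assoc w]

lemma q_a₀ (q : S.A ⊕ S.B → ℤ) (h : ∀ x ∈ S.items, tot q (S.face x.2.1) = 0) :
    q (Sum.inl S.a₀) = 0 ∧
      FreeGroup.of (Sum.inl (S.a₀, (0 : ℤ))) = (S.items.map fun x =>
        FreeGroup.mk (S.relabel q x.1 0) * (if x.2.2
        then FreeGroup.mk (S.relabel q (S.face x.2.1) (tot q x.1))
        else (FreeGroup.mk (S.relabel q (S.face x.2.1) (tot q x.1)))⁻¹)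
        * (FreeGroup.mk (S.relabel q x.1 0))⁻¹).prod := by
  have h1 := congrArg (fun z => endAt q S.pk z (1, 0)) S.ident
  have h2 := S.endAt_items q S.items h 1
  have h3 : endAt q S.pk (FreeGroup.of (Sum.inl S.a₀)) (1, 0)
      = (FreeGroup.of (Sum.inl (S.a₀, (0 : ℤ))), q (Sum.inl S.a₀)) := by
    simp [endAt, coverAct, stepPerm, pk]
  rw [h3] at h1
  have h4 := h1.trans h2
  rw [one_mul, Prod.mk.injEq] at h4
  exact ⟨h4.2, h4.1⟩

/-- The cover stage. -/
noncomputable abbrev cover (q : S.A ⊕ S.B → ℤ) (h : ∀ x ∈ S.items, tot q (S.face x.2.1) = 0) :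
    Stage G where
  A := S.A × ℤ
  B := S.B × ℤ
  V := S.V × ℤ
  J := S.J × ℤ
  s a := (S.s a.1, a.2)
  t a := (S.t a.1, a.2 + q (Sum.inl a.1))
  lab a := S.lab a.1
  r jk := S.relabel q (S.r jk.1) jk.2
  a₀ := (S.a₀, 0)
  loop := by simp [(S.q_a₀ q h).1, S.loop]
  items := S.items.map fun x => (S.relabel q x.1 0, S.liftFace q x.2.1 (tot q x.1), x.2.2)
  walks := by
    intro u L ε hm
    obtain ⟨⟨u', c, ε'⟩, hx, heq⟩ := List.mem_map.1 hm
    rcases c with j | L'
    · simp [liftFace] at heq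
    · simp only [liftFace, Sum.map_inr, Prod.mk.injEq, Sum.inr.injEq] at heq
      obtain ⟨-, rfl, -⟩ := heq
      obtain ⟨v, hv⟩ := S.walks u' L' ε' hx
      have h0 : tot q L' = 0 := h _ hx
      exact ⟨(v, tot q u'), by simpa [h0] using S.walk_lift q (tot q u') hv⟩
  indep := by
    classical
    refine lifted_indep (fun j => tot evec (S.r j)) S.indep _ fun p j s c hc => ?_
    simpa using S.moment_relabel q s c p hc (S.r j) 0
  ident := by
    rw [(S.q_a₀ q h).2, List.map_map]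
    refine congrArg List.prod (List.map_congr_left fun x _ => ?_)
    obtain ⟨u, c | c, ε⟩ := x <;> rfl

end Stage

end Vale.Agent.P174.Indicable
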