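import Mathlib

/-!
Words over edges: signed totals, heights, lifts to the infinite cyclic cover.
-/

namespace Vale.Agent.P174.Indicable

/-- Signed letter value. -/
def sgn {X R : Type} [AddCommGroup R] (q : X → R) (x : X × Bool) : R :=
  if x.2 then q x.1 else - q x.1

/-- Signed total of a word. -/
def tot {X R : Type} [AddCommGroup R] (q : X → R) : List (X × Bool) → R
  | [] => 0
  | x :: L => sgn q x + tot q L

lemma tot_map {X R R' : Type} [AddCommGroup R] [AddCommGroup R'] (f : R →+ R') (q : X → R) :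
    ∀ L, f (tot q L) = tot (fun x => f (q x)) L
  | [] => map_zero f
  | x :: L => by
    rw [tot, tot, map_add, tot_map f q L, sgn, sgn]
    split <;> simp

lemma tot_congr {X R : Type} [AddCommGroup R] {q q' : X → R} :
    ∀ {L : List (X × Bool)}, (∀ x ∈ L, q x.1 = q' x.1) → tot q L = tot q' L
  | [], _ => rfl
  | x :: L, h => by
    rw [tot, tot, tot_congr fun y hy => h y (List.mem_cons_of_mem _ hy), sgn, sgn,
      h x List.mem_cons_self]

lemma tot_add {X R : Type} [AddCommGroup R] (q q' : X → R) :
    ∀ L, tot (fun x => q x + q' x) L = tot q L + tot q' L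
  | [] => by simp [tot]
  | x :: L => by
    simp only [tot, tot_add q q' L, sgn]
    split <;> abel

lemma lift_mk_eq_tot {X R : Type} [AddCommGroup R] (q : X → R) :
    ∀ L, FreeGroup.lift (fun x => Multiplicative.ofAdd (q x)) (FreeGroup.mk L)
      = Multiplicative.ofAdd (tot q L)
  | [] => by simp [tot]
  | x :: L => by
    have h : FreeGroup.mk (x :: L) = FreeGroup.mk [x] * FreeGroup.mk L := by
      rw [FreeGroup.mul_mk]; rfl
    rw [h, map_mul, lift_mk_eq_tot q L, tot, ofAdd_add]
    congr 1
    obtain ⟨e, b⟩ := x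
    cases b <;> simp [sgn, FreeGroup.lift_mk]

/-- Lift of a word starting at height `h`; a letter records the height at the source of its edge. -/
def liftWord {X : Type} (q : X → ℤ) : List (X × Bool) → ℤ → List ((X × ℤ) × Bool)
  | [], _ => []
  | (e, true) :: L, h => ((e, h), true) :: liftWord q L (h + q e)
  | (e, false) :: L, h => ((e, h - q e), false) :: liftWord q L (h - q e)

lemma liftWord_length {X : Type} (q : X → ℤ) :
    ∀ L h, (liftWord q L h).length = L.length
  | [], _ => rfl
  | (_, true) :: L, h => by simp [liftWord, liftWord_length q L]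
  | (_, false) :: L, h => by simp [liftWord, liftWord_length q L]

lemma liftWord_proj {X : Type} (q : X → ℤ) :
    ∀ L h, (liftWord q L h).map (fun x => (x.1.1, x.2)) = L
  | [], _ => rfl
  | (_, true) :: L, h => by simp [liftWord, liftWord_proj q L]
  | (_, false) :: L, h => by simp [liftWord, liftWord_proj q L]

/-- The permutation of positions given by one edge. -/
def stepPerm {X Y : Type} (q : X → ℤ) (π : X → ℤ → Y) (e : X) :
    Equiv.Perm (FreeGroup Y × ℤ) where
  toFun p := (p.1 * FreeGroup.of (π e p.2), p.2 + q e)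
  invFun p := (p.1 * (FreeGroup.of (π e (p.2 - q e)))⁻¹, p.2 - q e)
  left_inv p := by simp [mul_assoc]
  right_inv p := by simp [mul_assoc]

/-- Right action on positions in the cover. -/
def coverAct {X Y : Type} (q : X → ℤ) (π : X → ℤ → Y) :
    FreeGroup X →* (Equiv.Perm (FreeGroup Y × ℤ))ᵐᵒᵖ :=
  FreeGroup.lift fun e => MulOpposite.op (stepPerm q π e)

/-- Endpoint of the lift of an element started at a position. -/
def endAt {X Y : Type} (q : X → ℤ) (π : X → ℤ → Y) (x : FreeGroup X)
    (p : FreeGroup Y × ℤ) : FreeGroup Y × ℤ :=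
  MulOpposite.unop (coverAct q π x) p

lemma endAt_mul {X Y : Type} (q : X → ℤ) (π : X → ℤ → Y) (x y : FreeGroup X) (p) :
    endAt q π (x * y) p = endAt q π y (endAt q π x p) := by
  simp [endAt]

lemma endAt_mk {X Y : Type} (q : X → ℤ) (π : X → ℤ → Y) :
    ∀ L w h, endAt q π (FreeGroup.mk L) (w, h)
      = (w * FreeGroup.mk ((liftWord q L h).map fun x => (π x.1.1 x.1.2, x.2)), h + tot q L)
  | [], w, h => by simp [endAt, tot, liftWord, ← FreeGroup.one_eq_mk]
  | (e, b) :: L, w, h => by
    have hs : FreeGroup.mk ((e, b) :: L) = FreeGroup.mk [(e, b)] * FreeGroup.mk L := by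
      rw [FreeGroup.mul_mk]; rfl
    rw [hs, endAt_mul]
    cases b
    · have : endAt q π (FreeGroup.mk [(e, false)]) (w, h)
          = (w * (FreeGroup.of (π e (h - q e)))⁻¹, h - q e) := by
        simp [endAt, coverAct, FreeGroup.lift_mk, stepPerm]
      rw [this, endAt_mk q π L, Prod.mk.injEq]
      refine ⟨?_, by simp [tot, sgn]; ring⟩
      rw [mul_assoc]
      rfl
    · have : endAt q π (FreeGroup.mk [(e, true)]) (w, h)
          = (w * FreeGroup.of (π e h), h + q e) := by
        simp [endAt, coverAct, FreeGroup.lift_mk, stepPerm]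
      rw [this, endAt_mk q π L, Prod.mk.injEq]
      refine ⟨?_, by simp [tot, sgn]; ring⟩
      rw [mul_assoc]
      rfl

lemma endAt_inv_mk {X Y : Type} (q : X → ℤ) (π : X → ℤ → Y) (L : List (X × Bool)) (w) (h : ℤ) :
    endAt q π (FreeGroup.mk L)⁻¹ (w, h + tot q L)
      = (w * (FreeGroup.mk ((liftWord q L h).map fun x => (π x.1.1 x.1.2, x.2)))⁻¹, h) := by
  set W := FreeGroup.mk ((liftWord q L h).map fun x => (π x.1.1 x.1.2, x.2)) with hW
  have h1 := endAt_mk q π L (w * W⁻¹) h
  rw [← hW, inv_mul_cancel_right] at h1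
  rw [← h1, ← endAt_mul, mul_inv_cancel]
  simp [endAt]

lemma lifted_indep {B J : Type} [DecidableEq J] (V : J → B →₀ ℚ)
    (hV : LinearIndependent ℚ V) (W : J × ℤ → (B × ℤ) →₀ ℚ)
    (hW : ∀ (p : ℕ) (j : J) (s : Finset ℤ) (c : ℤ → ℚ),
      (∀ i < p, ∑ k ∈ s, c k * (k : ℚ) ^ i = 0) →
      ∑ k ∈ s, c k • Finsupp.linearCombination ℚ
          (fun x : B × ℤ => Finsupp.single x.1 ((x.2 : ℚ) ^ p)) (W (j, k))
        = (∑ k ∈ s, c k * (k : ℚ) ^ p) • V j) :
    LinearIndependent ℚ W := by
  classical
  rw [linearIndependent_iff]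
  intro c hc
  let S : J → Finset ℤ := fun j => (c.support.filter fun x => x.1 = j).image Prod.snd
  have hmom : ∀ p j, ∑ k ∈ S j, c (j, k) * (k : ℚ) ^ p = 0 := by
    intro p
    induction p using Nat.strong_induction_on with
    | _ p ih =>
      intro j
      by_cases hj : j ∈ c.support.image Prod.fst
      swap
      · have : S j = ∅ := by
          refine Finset.eq_empty_of_forall_notMem fun k hk => hj ?_
          simp only [S, Finset.mem_image, Finset.mem_filter] at hk
          obtain ⟨x, ⟨hx, rfl⟩, rfl⟩ := hk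
          exact Finset.mem_image_of_mem _ hx
        simp [this]
      have hc' := hc
      rw [Finsupp.linearCombination_apply, Finsupp.sum] at hc'
      have h0 := congrArg
        (Finsupp.linearCombination ℚ (fun x : B × ℤ => Finsupp.single x.1 ((x.2 : ℚ) ^ p))) hc'
      rw [map_zero, map_sum,
        ← Finset.sum_fiberwise_of_maps_to (g := Prod.fst) (t := c.support.image Prod.fst)
          (fun x hx => Finset.mem_image_of_mem _ hx)] at h0
      refine linearIndependent_iff'.1 hV _ (fun j => ∑ k ∈ S j, c (j, k) * (k : ℚ) ^ p) ?_ j hj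
      rw [← h0]
      refine Finset.sum_congr rfl fun i _ => ?_
      rw [← hW p i (S i) (fun k => c (i, k)) fun l hl => ih l hl i, Finset.sum_image]
      · refine Finset.sum_congr rfl fun x hx => ?_
        obtain ⟨x₁, x₂⟩ := x
        obtain ⟨-, rfl⟩ := Finset.mem_filter.1 hx
        simp [map_smul]
      · intro x hx y hy hxy
        rw [Finset.mem_coe, Finset.mem_filter] at hx hy
        exact Prod.ext (hx.2.trans hy.2.symm) hxy
  refine Finsupp.ext fun x => ?_
  obtain ⟨j, k₀⟩ := x
  by_contra hne
  have hk : k₀ ∈ S j := Finset.mem_image.2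
    ⟨(j, k₀), Finset.mem_filter.2 ⟨Finsupp.mem_support_iff.2 hne, rfl⟩, rfl⟩
  let P : Polynomial ℚ := ∏ k ∈ (S j).erase k₀, (Polynomial.X - Polynomial.C (k : ℚ))
  have h1 : ∑ k ∈ S j, c (j, k) * P.eval (k : ℚ) = 0 := by
    simp only [Polynomial.eval_eq_sum_range, Finset.mul_sum]
    rw [Finset.sum_comm]
    refine Finset.sum_eq_zero fun i _ => ?_
    have := congrArg (P.coeff i * ·) (hmom i j)
    simp only [Finset.mul_sum, mul_zero] at this
    rw [← this]
    exact Finset.sum_congr rfl fun k _ => by ring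
  rw [Finset.sum_eq_single_of_mem k₀ hk fun k hk' hne' => ?_] at h1
  · refine hne ?_
    have hP : P.eval (k₀ : ℚ) ≠ 0 := by
      simp only [P, Polynomial.eval_prod, Polynomial.eval_sub, Polynomial.eval_X,
        Polynomial.eval_C, Finset.prod_ne_zero_iff]
      intro k hk' h0
      exact (Finset.mem_erase.1 hk').1 (by exact_mod_cast (sub_eq_zero.1 h0).symm)
    simpa [hP] using h1
  · refine mul_eq_zero_of_right _ ?_
    simp only [P, Polynomial.eval_prod]
    exact Finset.prod_eq_zero (Finset.mem_erase.2 ⟨hne', hk'⟩) (by simp)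

end Vale.Agent.P174.Indicable
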